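import Vale.Agent.P011UHB.E6
import Vale.Agent.P011UQ5.Exq
import Vale.Agent.P011UQ6.Ldv
import Vale.Agent.P011UQ7.Twf
import Vale.Agent.P011LQ.Three
import Vale.Agent.P011.Hey.Fin0

/-!
Projective actions of exponent three over a global function field are split by cyclic cubic
extensions.
-/

set_option autoImplicit false
set_option linter.all false

namespace Vale.Agent.P011UHB

open Module IntermediateField Polynomial Vale.Agent.P011 Vale.Agent.P011LD Vale.Agent.P011LQ
  Vale.Agent.P011.W Vale.Agent.P011.H738 Vale.Agent.P011.H271 Vale.Agent.P011UQ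
  Vale.Agent.P011UQ5 Vale.Agent.P011.Even.LocDiv

section

variable {k : Type} [Field k]

/-- The cubic has no root modulo `v`. -/
def N3 (v : Place k) (u : k) : Prop :=
  v.abv u ≤ 1 ∧ ∀ y, v.abv y ≤ 1 → ¬v.abv ((cp u).eval y) < 1

theorem ex_n3 [GFF k] (v : Place k) : ∃ u, N3 v u := by
  let _ : Field (Even.LocDiv.Res v.comp) := Field.ofIsUnitOrEqZero (Even.LocDiv.res_isUnit_or v.comp)
  obtain ⟨b, hb⟩ := exists_noroot (Even.LocDiv.Res v.comp)
  obtain ⟨b, rfl⟩ := Ideal.Quotient.mk_surjective b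
  obtain ⟨u, hu⟩ := dense_alg v b.1 one_pos
  have u1 : ‖algebraMap k v.comp u‖ ≤ 1 := by
    rw [← sub_sub_cancel b.1 (algebraMap k v.comp u)]
    exact (ringO v.comp).sub_mem b.2 (show _ ∈ ringO v.comp from hu.le)
  refine ⟨u, norm_alg v u ▸ u1, fun y hy e => hb (Ideal.Quotient.mk _
    ⟨algebraMap k _ y, show ‖_‖ ≤ 1 from (norm_alg v y).symm ▸ hy⟩) ?_⟩
  rw [show Ideal.Quotient.mk (idealM v.comp) b = Ideal.Quotient.mk _ ⟨_, u1⟩ from
    Ideal.Quotient.eq.2 hu, ← map_cp, Ideal.Quotient.eq_zero_iff_mem, mem_idealM]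
  rw [← norm_alg, map_cp] at e
  exact (congrArg norm (map_cp (ringO v.comp).subtype _ _)).trans_lt e

theorem N3.near {v : Place k} {a b : k} (h : N3 v a) (e : v.abv (b - a) < 1) : N3 v b := by
  refine ⟨sub_add_cancel b a ▸ add_le e.le h.1, fun y hy u => h.2 y hy ?_⟩
  rw [show (cp a).eval y = (cp b).eval y + (b - a) * (y * (y + -1)) by simp only [cp_eval]; ring]
  refine add_lt u ?_
  rw [map_mul, map_mul]
  exact mul_lt_one_of_nonneg_of_lt_one_left (v.abv.nonneg _) e
    (mul_le_one₀ hy (v.abv.nonneg _) (add_le hy (by simp)))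

theorem N3.loc {v : Place k} {a : k} (h : N3 v a) : ‖algebraMap k v.comp a‖ ≤ 1 ∧
    ∀ x : v.comp, ‖x‖ ≤ 1 → ¬‖(cp (algebraMap k _ a)).eval x‖ < 1 := by
  have := isUltra v
  have a1 : ‖algebraMap k v.comp a‖ ≤ 1 := (norm_alg v a).symm ▸ h.1
  refine ⟨a1, fun x hx e => ?_⟩
  obtain ⟨z, hz⟩ := dense_alg v x one_pos
  obtain ⟨b1, b2⟩ := cp_close a1 hx hz e
  rw [← map_cp, norm_alg] at b2
  exact h.2 z (norm_alg v z ▸ b1) b2

theorem cp_sep {u : k} (h : ∀ x, (cp u).eval x ≠ 0) : (cp u).Separable :=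
  (separable_iff_derivative_ne_zero (cp_irr h)).2 fun e => by
    have d : ∀ x, 3 * x ^ 2 - 2 * u * x + (u - 3) = 0 := fun x => by
      have := congrArg (eval x) e
      simp [cp] at this
      linear_combination this
    exact h (-1) (by rw [cp_eval]; linear_combination d 1 - d 0)

theorem cp_mem {K : Type} [Field K] {u θ x : K} (hθ : (cp u).eval θ = 0)
    (hx : (cp u).eval x = 0) : x = θ ∨ x = (1 - θ)⁻¹ ∨ x = 1 - θ⁻¹ := by
  rw [cp_eval] at hθ hx
  have t0 : θ ≠ 0 := fun e => by simp [e] at hθ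
  have t1 : 1 - θ ≠ 0 := fun e => one_ne_zero (α := K) (by
    rw [← sub_eq_zero.1 e] at hθ
    linear_combination -hθ)
  have e : u = θ + (1 - θ)⁻¹ + (1 - θ⁻¹) := by
    field_simp
    linear_combination hθ
  have : (x - θ) * (x - (1 - θ)⁻¹) * (x - (1 - θ⁻¹)) = 0 := by
    rw [← hx, e]
    field_simp
    ring
  simpa only [mul_eq_zero, sub_eq_zero, or_assoc] using this

end

/-- **Exponent three over a global function field.** -/
theorem bq3 : BQ3 := by
  intro k K _ _ _ _ _ n _ _ _ A l h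
  have := IsSepClosure.sep_closed k (K := K)
  have : IsGalois k K := IsSepClosure.isGalois
  obtain ⟨d, D, _, _, _, _, hD, a1, a2⟩ := P011UQ6.ldv k K n 3 A l h
  obtain ⟨S, hS⟩ := P011UQ7.spl_ae hD
  obtain ⟨w⟩ := Hey.nonempty_place k
  choose b hb using ex_n3 (k := k)
  obtain ⟨u, hu⟩ := approx (S.finite_toSet.insert w) b one_pos
  have ha := fun v m => ((hb v).near (hu v m))
  have n0 : ∀ x, (cp u).eval x ≠ 0 := fun x e => by
    have := isUltra w
    obtain ⟨c1, c2⟩ := (ha w (Set.mem_insert _ _)).loc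
    exact cp_ne c1 c2 (algebraMap k _ x) (by rw [← map_cp, e, map_zero])
  obtain ⟨r, hr⟩ := IsSepClosed.exists_aeval_eq_zero K (cp u)
    (degree_ne_of_natDegree_ne (by simp [cp_deg])) (cp_sep n0)
  have i1 := Algebra.IsIntegral.isIntegral (R := k) r
  have hr' := (cp_aeval u r).symm.trans hr
  refine ⟨k⟮r⟯, by rw [adjoin.finrank i1, cp_min n0 hr, cp_deg], ?_,
    (a2 r ?_).mono fun σ s => s r (mem_adjoin_simple_self k r)⟩
  · have : Normal k k⟮r⟯ := normal_iff_forall_map_le'.2 fun σ => by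
      rw [adjoin_map, Set.image_singleton, adjoin_simple_le_iff]
      have m := mem_adjoin_simple_self k r
      have e := map_cp (σ : K →+* K) (algebraMap k K u) r
      rw [hr', map_zero, RingHom.coe_coe, σ.commutes] at e
      rcases cp_mem hr' e.symm with e | e | e <;> refine e.symm ▸ ?_
      exacts [m, inv_mem (sub_mem (one_mem _) m), sub_mem (one_mem _) (inv_mem m)]
    exact ⟨⟩
  have : FiniteDimensional k k⟮r⟯ := adjoin.finiteDimensional i1
  have : GFF k⟮r⟯ := Hey.H63.gff_of_finite (k := k)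
  refine H279.Sq.spl_of_local hD _ fun W => ?_
  obtain ⟨v, e, he, hvW⟩ := Hey.H63.exists_below (k := k) W
  obtain ⟨φ, hφ⟩ := Hey.H63.exists_compHom v W he hvW
  rw [← show φ.comp (algebraMap k v.comp) = (algebraMap _ W.comp).comp (algebraMap k k⟮r⟯) from
    RingHom.ext hφ]
  by_cases hv : v ∈ S
  · let _ := nnfPlace v
    have := isUltra v
    obtain ⟨q, E, _, _, _, _, b1, b2, b3⟩ := a1 v.comp
    refine (b3 _ φ).2 ?_
    rcases (Nat.dvd_prime Nat.prime_three).1 b1 with rfl | rfl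
    · exact (spl_of_maxfield b2 (L := v.comp) (finrank_self _) (Algebra.ofId _ E)).comp φ
    · obtain ⟨c1, c2⟩ := (ha v (.inr hv)).loc
      refine spl3 b2 c1 c2 φ (θ := algebraMap _ W.comp (AdjoinSimple.gen k r)) ?_
      rw [hφ, ← map_cp, map_eq_zero]
      exact Subtype.ext ((map_cp (algebraMap k⟮r⟯ K) _ _).trans hr')
  · exact (hS v hv).comp φ

end Vale.Agent.P011UHB
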