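import Vale.Agent.P011UHB.Fin
import Vale.Agent.P011UHB.Bq3

/-!
Block B: forms of `E₆` over function fields are isotropic.
-/

set_option autoImplicit false
set_option linter.all false

namespace Vale.Agent.P011UHB

theorem e6i : P011U.E6I := e6i_bq bq3

end Vale.Agent.P011UHB
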