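import Vale.Agent.P011UHB.Defs
import Vale.Agent.P011UA.A0
import Vale.Agent.P011UP.Std

/-!
Block B: the statements on groups, fields and cocycles.
-/

set_option autoImplicit false
set_option linter.all false

namespace Vale.Agent.P011UHB

open Matrix Vale.Agent.P011L Vale.Agent.P183CH Vale.Agent.P011U
open Vale.Agent.P011UC (pa ch)

/-- Bruhat cells -/
def Cell {R : RS} {K G : Type} [Field K] [Group G] (Γ : RG R K G) (g : G) (w : R.Aut) : Prop :=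
  ∃ b ∈ Γ.Bo, ∃ n, ∃ b' ∈ Γ.Bo, Γ.Rep n w ∧ g = b * n * b'

/-- `χ` is a point of the torus with the character group `ℤ ^ r` -/
def Ml {r : ℕ} {K : Type} [Field K] (χ : (Fin r → ℤ) → Kˣ) : Prop :=
  ∀ γ δ, χ (γ + δ) = χ γ * χ δ

/-- `ψ` permutes the root subgroups of the roots in `S` -/
def Nm {R : RS} {K G : Type} [Field K] [Group G] (Γ : RG R K G) (S : Set R.Q) (ψ : G → G)
    (σ : K → K) (w : R.Aut) (χ : R.Q → Kˣ) : Prop :=
  ∀ γ ∈ S, ∃ e : ℤˣ, ∀ u, ψ (Γ.x γ u) = Γ.x (w γ) (((e : ℤ) : K) * χ γ * σ u) ∧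
    ψ (Γ.x (-γ) u) = Γ.x (-w γ) (((e : ℤ) : K) * ((χ γ)⁻¹ : Kˣ) * σ u)

/-- NMX: standard endomorphisms which normalise the torus. -/
def NMX : Prop := ∀ (R : RS) (K G : Type) [Field K] [Group G] (Γ : RG R K G), R.Ok → Γ.Ok →
  ∀ (ψ : G →* G) (σ : K →+* K) g c π a, Std Γ ψ σ g c π → Γ.Rep g a →
    ∃ χ, Ml χ ∧ Nm Γ R.Φ ψ σ (a * pa R π) χ

/-- BLG: the building of the group. -/
def BLG : Prop := ∀ (R : RS) (K G : Type) [Field K] [Group G] (Γ : RG R K G), R.Ok → Γ.Ok →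
  ∃ δ : G → G → R.Aut, Bld R δ ∧ (∀ y z w, Cell Γ (y⁻¹ * z) w ↔ δ y z = w) ∧
    (∀ J y z, δ y z ∈ R.WJ J ↔ y⁻¹ * z ∈ PJ Γ J) ∧
    (∀ (ψ : G →* G) (σ : K →+* K) g c π, Std Γ ψ σ g c π → Au R δ (fun y => ψ y * g) π) ∧
    ∀ x z n₀ w₀, Γ.Rep n₀ w₀ → R.Lg Set.univ w₀ → δ x z = w₀ →
      ∃ x', δ x x' = 1 ∧ δ z (x' * n₀) = 1 ∧ ∀ y, δ x y * δ y z = w₀ →
        ∀ n, Γ.Rep n (δ x y) → δ y (x' * n) = 1

section

variable {k K : Type} [Field k] [Field K] [Algebra k K]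

/-- `σ` fixes `S` pointwise -/
def Fx (S : Set K) (σ : K ≃ₐ[k] K) : Prop := ∀ x ∈ S, σ x = x

/-- a Galois extension of degree `l` -/
def Cyc (l : ℕ) (L L' : IntermediateField k K) : Prop :=
  ∃ M : IntermediateField L K, M.restrictScalars k = L' ∧ Module.finrank L M = l ∧ IsGalois L M

/-- a finite tower of Galois extensions whose degrees are prime numbers in `P` -/
def Up (P : Set ℕ) (L L' : IntermediateField k K) : Prop :=
  Relation.ReflTransGen (fun A B => ∃ l ∈ P, l.Prime ∧ Cyc l A B) L L'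

/-- `L` contains the roots of unity of order `l` -/
def Mu (l : ℕ) (L : IntermediateField k K) : Prop :=
  (l : K) = 0 ∨ ∃ ζ ∈ L, IsPrimitiveRoot ζ l

section

variable {r : ℕ} (ω : (K ≃ₐ[k] K) →* ((Fin r → ℤ) ≃ₗ[ℤ] (Fin r → ℤ)))

/-- the action of the Galois group on the torus -/
def ga (σ : K ≃ₐ[k] K) (χ : (Fin r → ℤ) → Kˣ) : (Fin r → ℤ) → Kˣ :=
  fun γ => Units.map (σ : K →* K) (χ ((ω σ)⁻¹ γ))

/-- continuous cocycles -/
structure Co (ξ : (K ≃ₐ[k] K) → (Fin r → ℤ) → Kˣ) : Prop where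
  ml : ∀ σ, Ml (ξ σ)
  mul : ∀ σ τ, ξ (σ * τ) = ξ σ * ga ω σ (ξ τ)
  cont : Near k fun τ => ω τ = 1 ∧ ξ τ = 1

/-- the cocycle splits over `S` -/
def Cb (ξ : (K ≃ₐ[k] K) → (Fin r → ℤ) → Kˣ) (S : Set K) : Prop :=
  ∃ χ, Ml χ ∧ ∀ σ, Fx S σ → ξ σ * χ = ga ω σ χ

end

variable {D : Chev} (T : Tw k (D.grp K))

/-- quasi-split over `S` -/
def QS (S : Set K) : Prop := ∃ y : D.grp K, ∀ σ, Fx S σ → ∀ p ∈ (GG D K).Bo,
  y⁻¹ * T.a σ (y * p * y⁻¹) * y ∈ (GG D K).Bo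

/-- inner over `S` -/
def In1 (S : Set K) : Prop := ∀ σ, Fx S σ → ∃ g c, Std (GG D K) (T.a σ) σ g c 1

/-- inner or trialitarian of degree three over `S` -/
def In3 (S : Set K) : Prop := ∀ σ, Fx S σ → ∃ g c π, Std (GG D K) (T.a σ) σ g c π ∧ π ^ 3 = 1

/-- split in the standard way over `S` -/
def Sp1 (S : Set K) : Prop := ∀ σ, Fx S σ → ∀ h, T.a σ h = fm D (σ : K →+* K) h

/-- over `S` the form is isomorphic to its Frobenius twist -/
def PerQ (S : Set K) (q : ℕ) : Prop := ∃ (Φ : D.grp K →* D.grp K) (g : _) (c : _),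
  Std (GG D K) Φ (· ^ q) g c 1 ∧ ∀ σ, Fx S σ → ∀ h, Φ (T.a σ h) = T.a σ (Φ h)

/-- the same if the characteristic is less than `l` -/
def Per (l : ℕ) (S : Set K) : Prop :=
  ∀ p : ℕ, p.Prime → p < l → (p : K) = 0 → ∃ N, 0 < N ∧ PerQ T S (p ^ N)

/-- the data of a cyclic step: the form is split over `L`, the chamber `y` is rational over `L`
and has the position `a` relative to its image under `θ` -/
structure Cy (l : ℕ) (L : IntermediateField k K) (θ : K ≃ₐ[k] K)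
    (π : Equiv.Perm (Fin D.R.r)) (y : D.grp K) (a : D.R.Aut) : Prop where
  deg : Module.finrank k L = l
  gal : IsGalois k L
  ne : ¬Fx (L : Set K) θ
  sp : Sp1 T L
  fix : ∀ σ : K ≃ₐ[k] K, Fx (L : Set K) σ → fm D (σ : K →+* K) y = y
  pos : ∃ g c, Std (GG D K) (T.a θ) θ g c π ∧ Cell (GG D K) (y⁻¹ * T.a θ y * g) a

end

/-- `f` is the homomorphism from `SL_l` which belongs to the subsystem `ρ` -/
structure Sl {D : Chev} {K : Type} [Field K] {l : ℕ} (ρ : Fin l → Fin l → D.R.Q)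
    (f : SA K l →* D.grp K) (e : Fin l → Fin l → ℤˣ) : Prop where
  sym : ∀ i j, e i j = e j i
  x : ∀ i j, i ≠ j → ∀ (u : K) (m : SA K l), m.1.1 = 1 + single i j u →
    f m = (GG D K).x (ρ i j) (((e i j : ℤ) : K) * u)
  h : ∀ i j, i ≠ j → ∃ y : Fin D.R.r → ℤ, y ≠ 0 ∧
    (∀ γ n, Cp D.R γ (ρ i j) n → P011UP.pw y γ = n) ∧ ∀ (t : Kˣ) (m : SA K l),
      m.1.1 = diagonal (fun a => if a = i then (t : K) else if a = j then (t⁻¹ : Kˣ) else 1) →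
      f m = P011UP.co GG_ok y t
  gal : ∀ (σ : K →+* K) (m m' : SA K l), m'.1.1 = m.1.1.map σ → f m' = fm D σ (f m)

/-- SLH: closed subsystems of type `A` give homomorphisms from `SL_l`. -/
def SLH : Prop := ∀ (D : Chev) (K : Type) [Field K] (l : ℕ) (ρ : Fin l → Fin l → D.R.Q),
  As D.R ρ → ∃ f e, Sl (K := K) ρ f e

/-- the norm `A θ(A) ⋯ θ ^ (j - 1) (A)` -/
def nm {K : Type} [Field K] {n : ℕ} (θ : K →+* K) (A : Matrix (Fin n) (Fin n) K) :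
    ℕ → Matrix (Fin n) (Fin n) K
  | 0 => 1
  | j + 1 => A * (nm θ A j).map θ

/-- quantifier over cyclic extensions of prime degree and invertible matrices over them -/
def AllC (Q : ∀ (k K : Type) [Field k] [Field K] [Algebra k K] (l : ℕ) (L : IntermediateField k K)
    (θ : K ≃ₐ[k] K) (n : ℕ), GL (Fin n) K → Prop) : Prop :=
  ∀ (k K : Type) [Field k] [Field K] [Algebra k K] [IsSepClosure k K] (l : ℕ)
    (L : IntermediateField k K) (θ : K ≃ₐ[k] K) (n : ℕ) (A : GL (Fin n) K), l.Prime →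
    Module.finrank k L = l → IsGalois k L → ¬Fx (L : Set K) θ → (∀ i j, A.1 i j ∈ L) →
      Q k K l L θ n A

/-- H9: Hilbert's theorem 90. -/
def H9 : Prop := AllC fun _ K _ _ _ l L θ n A => nm (θ : K →+* K) A.1 l = 1 →
  ∃ m : GL (Fin n) K, (∀ i j, m.1 i j ∈ L) ∧ A.1 * m.1.map θ = m.1

/-- ARI: the reduced norm is surjective. -/
def ARI : Prop := AllC fun k K _ _ _ l L θ n A => Glob k → NoR k → n = l →
  (∃ ν : K, nm (θ : K →+* K) A.1 l = ν • 1) → ∀ t : k, t ≠ 0 →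
    ∃ m : GL (Fin n) K, (∀ i j, m.1 i j ∈ L) ∧ A.1 * m.1.map θ = m.1 * A.1 ∧
      m.1.det = algebraMap k K t

/-- FLG: semilinear maps in small dimension fix a flag. -/
def FLG : Prop := AllC fun k K _ _ _ l L θ n A => n < l → n ≤ 3 →
  (nm (θ : K →+* K) A.1 l).charpoly.Splits →
    ∃ (F : IntermediateField k K) (θ' : K ≃ₐ[k] K) (m : SA K n), Up {p | p ≤ n} ⊥ F ∧
      Fx (F : Set K) θ' ∧ Fx (L : Set K) (θ⁻¹ * θ') ∧ (∀ i j, m.1.1 i j ∈ L ⊔ F) ∧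
      ∀ i j, j < i → ((m⁻¹).1.1 * A.1 * m.1.1.map θ') i j = 0

/-- MOV: the end of the cyclic steps. The homomorphisms `f`, `f'` are equivariant, `θ` acts through
the monomial matrices `A`, `A'`. -/
def MOV : Prop := AllG fun k K _ _ _ D T => NoR k → ∀ (l : ℕ) [NeZero l] (L : IntermediateField k K)
  (θ : K ≃ₐ[k] K) (w : D.R.Aut) (χ : D.R.Q → Kˣ) (ρ : Fin l → Fin l → D.R.Q) (s : Fin l),
  l.Prime → Module.finrank k L = l → IsGalois k L → ¬Fx (L : Set K) θ → As D.R ρ → Rt D.R w ρ s →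
  ∀ S : Set D.R.Q, S ⊆ D.R.Φ → (∀ γ ∈ S, w γ ∈ S) → (∀ i j, i ≠ j → ρ i j ∈ S) →
  (∀ γ ∈ S, ∀ σ, Fx (L : Set K) σ → ∀ u, T.a σ ((GG D K).x γ u) = (GG D K).x γ (σ u)) →
  Nm (GG D K) S (T.a θ) θ w χ →
  ((Ml χ ∧ Odd l ∧ ∃ d : Fin l → D.R.Q, (∀ i, d i ∈ S ∧ w (d i) = d (i + s)) ∧
      ∀ i j, ρ i j = d i - d j) ∨
    ∃ (ρ' : Fin l → Fin l → D.R.Q) (s' : Fin l) (y : Fin l → ℤ), As D.R ρ' ∧ Rt D.R w ρ' s' ∧
      (∀ i j, i ≠ j → ρ' i j ∈ S) ∧ (∀ i j, Cp D.R (ρ i j) (ρ' 0 s') (y i - y j)) ∧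
      ¬(l : ℤ) ∣ ∑ i, y i) → ¬T.Ani

/-- The form is pinned over `L` and `θ` maps the fundamental chamber to the opposite one. -/
def Op2 {k K : Type} [Field k] [Field K] [Algebra k K] {D : Chev} (T : Tw k (D.grp K))
    (L : IntermediateField k K) (θ : K ≃ₐ[k] K) (π : Equiv.Perm (Fin D.R.r)) : Prop :=
  ¬Fx (L : Set K) θ ∧ Dg D.R π ∧ (∀ σ, Fx (L : Set K) σ → ∃ π', Std (GG D K) (T.a σ) σ 1 1 π') ∧
    ∃ χ, Nm (GG D K) D.R.Φ (T.a θ) θ (LinearEquiv.neg ℤ * pa D.R π) χ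

/-- OPX: the quadratic step, normal form. -/
def OPX : Prop := AllI fun k K _ _ _ D T => ∀ L : IntermediateField k K, Module.finrank k L = 2 →
  QS T L → ¬T.Ani ∨ ∃ (T' : Tw k (D.grp K)) (θ : _) (π : _), Eqv T T' ∧ Op2 T' L θ π ∧
    (In1 T L → π = 1)

/-- OP2: the quadratic step, end. -/
def OP2 : Prop := AllG fun k K _ _ _ D T => NoR k → ∀ (L : IntermediateField k K) θ π,
  Module.finrank k L = 2 → Op2 T L θ π →
  ((¬TyA D.R ∧ In3 T L) ∨ (2 ≤ D.R.r ∧ In1 T L ∧ π = 1)) → ¬T.Ani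

/-- NRM: split forms. -/
def NRM : Prop := AllI fun k K _ _ _ D T => ∀ L : IntermediateField k K, FiniteDimensional k L →
  QS T L → In1 T L → ∃ T' : Tw k (D.grp K), Eqv T T' ∧ Sp1 T' L

/-- CXG: the combinatorial part of the cyclic step in the group. -/
def CXG : Prop := AllI fun k K _ _ _ D T => ∀ l L θ π y a, Od D.R l → Cy T l L θ π y a →
  ¬T.Ani ∨ (∃ y' a', Cy T l L θ π y' a' ∧ D.R.len a' ≤ D.R.len a ∧ Rd D.R l (a' * pa D.R π)) ∨
    ∃ (T' : Tw k (D.grp K)) (w : _) (χ : _), Eqv T T' ∧ Sp1 T' L ∧ Ext D.R w ∧ Cyz D.R l w ∧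
      Ml χ ∧ Nm (GG D K) D.R.Φ (T'.a θ) θ w χ

/-- RED: the position can be shortened over a solvable extension. -/
def RED : Prop := AllI fun k K _ _ _ D T => ∀ l L θ π y a, Od D.R l → Per T l ∅ →
  Cy T l L θ π y a → Rd D.R l (a * pa D.R π) →
    ∃ (T' : Tw k (D.grp K)) (F : IntermediateField k K), Eqv T T' ∧ Up {p | p < l} ⊥ F ∧
      ∀ T'' : Tw F (D.grp K), Res T' F T'' →
        ∃ L' θ' y' a', Cy T'' l L' θ' π y' a' ∧ D.R.len a' < D.R.len a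

/-- the theorem in smaller rank -/
def HBlt (n : ℕ) : Prop := AllG fun k _ _ _ _ D T => D.R.r < n → NoR k → Lift T → FixP T ∅

/-- ISQ: induction on the rank. -/
def ISQ : Prop := ∀ n, HBlt n → AllG fun k _ _ _ _ D T => D.R.r ≤ n → NoR k → Lift T → ¬T.Ani →
  FixP T ∅

/-- HBA: inner forms of type `A`. -/
def HBA : Prop := AllI fun _ _ _ _ _ D T => TyA D.R → In1 T ∅ → Lift T → FixP T ∅

/-- TRS: the obstructions are classes in the first cohomology of a torus. -/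
def TRS : Prop := AllI fun k K _ _ _ D T => ∃ (T' : Tw k (D.grp K))
  (ω : (K ≃ₐ[k] K) →* D.R.Aut) (ξ η : (K ≃ₐ[k] K) → D.R.Q → Kˣ) (e : ℕ), Eqv T T' ∧
    (∀ σ, Ext D.R (ω σ)) ∧ Co ω ξ ∧ Co ω η ∧ (∀ S, Cb ω ξ S → QS T' S) ∧
    (e = 1 ∨ (e = 2 ∧ (2 : K) ≠ 0)) ∧ ∀ (p N j : ℕ) S, p.Prime → (p : K) = 0 → p ^ N = e * j + 1 →
      Cb ω (fun σ => η σ ^ j) S → PerQ T' S (p ^ N)

/-- quantifier over tori and cocycles -/
def AllT (Q : ∀ (k K : Type) [Field k] [Field K] [Algebra k K] (r : ℕ),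
    ((K ≃ₐ[k] K) →* ((Fin r → ℤ) ≃ₗ[ℤ] (Fin r → ℤ))) → ((K ≃ₐ[k] K) → (Fin r → ℤ) → Kˣ) → Prop) :
    Prop :=
  ∀ (k K : Type) [Field k] [Field K] [Algebra k K] [IsSepClosure k K] (r : ℕ) ω ξ, Co ω ξ →
    Q k K r ω ξ

/-- PRM: Hilbert's theorem 90 for permutation modules. -/
def PRM : Prop := AllT fun _ _ _ _ _ r ω ξ => ∀ (S : Finset (Fin r → ℤ))
  (b : (Fin r → ℤ) → (Fin r → ℤ) →ₗ[ℤ] ℤ) (m : ℕ),
  (∀ σ, ∀ s ∈ S, ω σ s ∈ S ∧ ∀ γ, b (ω σ s) (ω σ γ) = b s γ) → (∀ γ, ∑ s ∈ S, b s γ • s = m • γ) →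
    Cb ω (fun σ => ξ σ ^ m) ∅

/-- all norm maps of the Galois extensions of degree `l` above `F` are surjective -/
def Dim1 {k K : Type} [Field k] [Field K] [Algebra k K] (l : ℕ) (F : IntermediateField k K) : Prop :=
  ∀ M : IntermediateField F K, FiniteDimensional F M → ∀ N : IntermediateField M K,
    Module.finrank M N = l → IsGalois M N → ∀ x : M, ∃ y : N, Algebra.norm M y = x

/-- CD1: tori over fields of dimension one. -/
def CD1 : Prop := AllT fun k K _ _ _ _ ω ξ => ∀ (l a : ℕ) (F : IntermediateField k K), l.Prime →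
  Dim1 l F → Cb ω (fun σ => ξ σ ^ l ^ a) F → Cb ω ξ F

/-- TOW: the cyclotomic towers. -/
def TOW : Prop := ∀ (k K : Type) [Field k] [Field K] [Algebra k K] [IsSepClosure k K], Glob k →
  NoR k → ∀ (l : ℕ) (L : IntermediateField k K), l.Prime → FiniteDimensional k L → Mu l L →
    ∃ F : ℕ → IntermediateField k K, F 0 = L ∧ (∀ i, Up {l} (F i) (F (i + 1))) ∧ Dim1 l (⨆ i, F i)

/-- KIL: classes of prime power order die in a finite tower. -/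
def KIL : Prop := AllT fun k K _ _ _ _ ω ξ => Glob k → NoR k → ∀ (l a : ℕ)
  (L : IntermediateField k K), l.Prime → FiniteDimensional k L → Mu l L →
  Cb ω (fun σ => ξ σ ^ l ^ a) L → ∃ L', Up {l} L L' ∧ Cb ω ξ L'

/-- ROT: the bottom of the tower. -/
def ROT : Prop := ∀ (k K : Type) [Field k] [Field K] [Algebra k K] [IsSepClosure k K]
  (L : IntermediateField k K), ∃ L', Up {2} L L' ∧ Mu 2 L' ∧ Mu 3 L' ∧ Mu 5 L'

/-- INV: the notions are invariant. -/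
def INV : Prop := AllI fun k K _ _ _ D T =>
  (∀ T' : Tw k (D.grp K), Eqv T T' → Eqv T' T ∧ (Lift T → Lift T') ∧ ∀ S, (QS T S → QS T' S) ∧
    (In1 T S → In1 T' S) ∧ (In3 T S → In3 T' S) ∧ ∀ l, Per T l S → Per T' l S) ∧
  ∀ L : IntermediateField k K, FiniteDimensional k L → (Glob k → Glob L) ∧
    ∃ T' : Tw L (D.grp K), Res T L T' ∧ (Lift T → Lift T')

/-- STA: the action on the Dynkin diagram. -/
def STA : Prop := AllI fun k K _ _ _ D T => ∃ π : (K ≃ₐ[k] K) →* Equiv.Perm (Fin D.R.r),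
  (∀ σ, ∃ g c, Std (GG D K) (T.a σ) σ g c (π σ)) ∧
  (∀ σ g c π', Std (GG D K) (T.a σ) σ g c π' → π' = π σ) ∧ Near k fun τ => π τ = 1

/-- GAL: fixed fields of open normal subgroups of prime index. -/
def GAL : Prop := ∀ (k K : Type) [Field k] [Field K] [Algebra k K] [IsSepClosure k K] (l : ℕ)
  (L : IntermediateField k K) (H : Subgroup (K ≃ₐ[k] K)), l.Prime → FiniteDimensional k L →
  Near k (· ∈ H) → (∀ σ, Fx (L : Set K) σ → ∀ τ ∈ H, σ * τ * σ⁻¹ ∈ H) →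
  H.relIndex L.fixingSubgroup ∣ l → ∃ L', Up {l} L L' ∧ ∀ σ, Fx (L' : Set K) σ → σ ∈ H

/-- ST2: the quadratic step. -/
def ST2 (n : ℕ) : Prop := AllG fun k K _ _ _ D T => D.R.r ≤ n → NoR k → Lift T →
  ∀ L : IntermediateField k K, Module.finrank k L = 2 → QS T L →
    ((¬TyA D.R ∧ In3 T L) ∨ (2 ≤ D.R.r ∧ In1 T L)) → FixP T ∅

/-- STL: the steps of degree three and five. -/
def STL (n l : ℕ) : Prop := AllG fun k K _ _ _ D T => D.R.r ≤ n → NoR k → Lift T → ¬TyA D.R →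
  Od D.R l → Per T l ∅ → ∀ L : IntermediateField k K, Module.finrank k L = l → IsGalois k L →
    QS T L → In1 T L → FixP T ∅

end Vale.Agent.P011UHB
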