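import Vale.Agent.P011U.IF2
import Vale.Agent.P011UC.Defs
import Mathlib.FieldTheory.Galois.Basic
import Mathlib.RingTheory.RootsOfUnity.PrimitiveRoots

/-!
Block B: forms with trivial Tits algebras over global fields without real places are quasi-split.
Definitions and exact statements.
-/

set_option autoImplicit false
set_option linter.all false

namespace Vale.Agent.P011UHB

open Matrix Vale.Agent.P011L Vale.Agent.P183CH Vale.Agent.P011U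
open Vale.Agent.P011UC (pa ch)

/-! ### Weyl groups and buildings -/

section

variable (R : RS)

/-- the extended Weyl group -/
def Ext (w : R.Aut) : Prop := ∃ a ∈ R.W, ∃ π, Dg R π ∧ w = a * pa R π

/-- lattice vectors as real vectors -/
def cv (γ : R.Q) : Fin R.r → ℝ := fun i => γ i

/-- the action on the real vector space -/
noncomputable def ac (w : R.Aut) (x : Fin R.r → ℝ) : Fin R.r → ℝ := ∑ i, x i • cv R (w (R.α i))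

/-- the invariant scalar product -/
noncomputable def ip (x y : Fin R.r → ℝ) : ℝ := ∑ i, ∑ j, x i * y j * R.B (R.α i) (R.α j)

/-- the closed fundamental chamber -/
def Dm (x : Fin R.r → ℝ) : Prop := ∀ i, 0 ≤ ip R x (cv R (R.α i))

/-- `x` is a dominant vector, generic in the eigenspace of `w + w⁻¹` for the greatest eigenvalue
`2 c` -/
structure Tp (w : R.Aut) (x : Fin R.r → ℝ) (c : ℝ) : Prop where
  ne : x ≠ 0
  dom : Dm R x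
  eig : ac R w x + ac R w⁻¹ x = (2 * c) • x
  top : ∀ y, ip R y (ac R w y) ≤ c * ip R y y
  gen : ∀ γ ∈ R.Φ, ip R x (cv R γ) = 0 → ∀ y, ac R w y + ac R w⁻¹ y = (2 * c) • y →
    ip R y (cv R γ) = 0

/-- `P` is closed under the cyclic shifts which do not raise the length -/
def Sh (P : Set R.Aut) : Prop :=
  ∀ w ∈ P, ∀ i, R.len (R.sE i * w * R.sE i) ≤ R.len w → R.sE i * w * R.sE i ∈ P

/-- `c ≤ cos (2 π / l)` -/
def Cs (l : ℕ) (c : ℝ) : Prop :=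
  (l = 3 ∧ 2 * c + 1 ≤ 0) ∨ (l = 5 ∧ (c ≤ 0 ∨ 4 * c ^ 2 + 2 * c - 1 ≤ 0))

/-- the cases of the cyclic steps -/
def Od (l : ℕ) : Prop := l = 3 ∨ (l = 5 ∧ ∃ e, Ty R CartanMatrix.E₈ e)

/-- `1 + w + ... + w ^ (l - 1) = 0` -/
def Cyz (l : ℕ) (w : R.Aut) : Prop := ∀ γ, ∑ j ∈ Finset.range l, (w ^ j) γ = 0

/-- the shapes which allow to shorten -/
def Rd (l : ℕ) (w : R.Aut) : Prop :=
  ((∃ j, w (R.α j) = -R.α j) ∧ (l = 3 → ∀ γ, w γ = -γ)) ∨ (l = 5 ∧ ∃ i j, i ≠ j ∧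
    ((R.A i j = -1 ∧ R.A j i = -1 ∧ w (R.α i) = R.α j ∧ w (R.α j) = -R.α i - R.α j) ∨
      (R.A i j = 0 ∧ w (R.α i) = R.α j ∧ w (R.α j) = -R.α i)))

/-- buildings; a chamber may have several names -/
structure Bld {X : Type} (δ : X → X → R.Aut) : Prop where
  mem : ∀ x y, δ x y ∈ R.W
  refl : ∀ x, δ x x = 1
  inv : ∀ x y, δ y x = (δ x y)⁻¹
  one : ∀ x y z, δ y z = 1 → δ x z = δ x y
  step : ∀ x y z i, δ y z = R.sE i →
    δ x z = δ x y * R.sE i ∨ (δ x z = δ x y ∧ δ x y (R.α i) ≤ 0)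
  ext : ∀ x y i, ∃ z, δ y z = R.sE i ∧ δ x z = δ x y * R.sE i

/-- `θ` is an automorphism of the building which acts on the types by `π` -/
def Au {X : Type} (δ : X → X → R.Aut) (θ : X → X) (π : Equiv.Perm (Fin R.r)) : Prop :=
  Dg R π ∧ ∀ x y, δ (θ x) (θ y) = pa R π * δ x y * (pa R π)⁻¹

/-- `x` is moved as little as possible -/
def Mn {X : Type} (δ : X → X → R.Aut) (θ : X → X) (x : X) : Prop :=
  ∀ y, R.len (δ x (θ x)) ≤ R.len (δ y (θ y))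

/-- the residue of type `J` of `x` is stable -/
def Sb {X : Type} (δ : X → X → R.Aut) (θ : X → X) (π : Equiv.Perm (Fin R.r)) (x : X)
    (J : Set (Fin R.r)) : Prop := δ x (θ x) ∈ R.WJ J ∧ ∀ i, π i ∈ J ↔ i ∈ J

/-- the apartment of the opposite chambers `x`, `z` is stable -/
def Ap {X : Type} (δ : X → X → R.Aut) (θ : X → X) (x z : X) : Prop :=
  R.Lg Set.univ (δ x z) ∧ δ x (θ x) * δ (θ x) z = δ x z ∧ δ x (θ z) * δ (θ z) z = δ x z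

/-- `n` is the pairing of `γ` with the coroot of `ρ` -/
def Cp (γ ρ : R.Q) (n : ℤ) : Prop := n * R.B ρ ρ = 2 * R.B γ ρ

/-- a closed subsystem of type `A` -/
structure As {l : ℕ} (ρ : Fin l → Fin l → R.Q) : Prop where
  mem : ∀ i j, i ≠ j → ρ i j ∈ R.Φ
  add : ∀ i j m, ρ i j + ρ j m = ρ i m
  len : ∀ i j i' j', i ≠ j → i' ≠ j' → R.B (ρ i j) (ρ i j) = R.B (ρ i' j') (ρ i' j')
  cls : ∀ i j i' j' (a b : ℕ), i ≠ j → i' ≠ j' → ¬(j = i' ∧ j' = i) → 0 < a → 0 < b →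
    a • ρ i j + b • ρ i' j' ∈ R.Φ → a = 1 ∧ b = 1 ∧ (j = i' ∨ j' = i)

/-- `w` rotates the subsystem -/
def Rt {l : ℕ} [NeZero l] (w : R.Aut) (ρ : Fin l → Fin l → R.Q) (s : Fin l) : Prop :=
  s ≠ 0 ∧ ∀ i j, w (ρ i j) = ρ (i + s) (j + s)

end

/-- HN (He, Nie): good position. -/
def HN : Prop := ∀ R : RS, R.Ok → ∀ P : Set R.Aut, P.Nonempty → (∀ w ∈ P, Ext R w) → Sh R P →
  ∃ w ∈ P, ∃ x c, Tp R w x c

/-- quantifier over buildings with an automorphism -/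
def AllB (Q : ∀ (R : RS) (X : Type), (X → X → R.Aut) → (X → X) → Equiv.Perm (Fin R.r) → Prop) :
    Prop :=
  ∀ R : RS, R.Ok → ∀ (X : Type) (δ : X → X → R.Aut) θ π, Bld R δ → Au R δ θ π → Q R X δ θ π

/-- SHF: cyclic shifts are realised. -/
def SHF : Prop := AllB fun R _ δ θ π => Sh R {w | ∃ x, Mn R δ θ x ∧ w = δ x (θ x) * pa R π}

/-- BND: closed local geodesics have length at least `2 π`. -/
def BND : Prop := AllB fun R _ δ θ π => ∀ l, l = 3 ∨ l = 5 → (∀ x, δ x (θ^[l] x) = 1) →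
  ∀ x v c, Tp R (δ x (θ x) * pa R π) v c → (∃ J, J ≠ Set.univ ∧ Sb R δ θ π x J) ∨
    (Cs l c ∧ (Cyz R l (δ x (θ x) * pa R π) → ∃ z, Ap R δ θ x z))

/-- EIG: elements with large angles. -/
def EIG : Prop := ∀ R : RS, R.Ok → ∀ l, Od R l → ∀ P : Set R.Aut, (∀ w ∈ P, Ext R w) → Sh R P →
  ∀ w ∈ P, ∀ x c, Tp R w x c → Cs l c → Cyz R l w ∨ ∃ w' ∈ P, Rd R l w'

/-- COX: the combinatorial part of the cyclic step. -/
def COX : Prop := AllB fun R X δ θ π => Nonempty X → ∀ l, Od R l → (∀ x, δ x (θ^[l] x) = 1) →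
  ∃ x, Mn R δ θ x ∧ ((∃ J, J ≠ Set.univ ∧ Sb R δ θ π x J) ∨ Rd R l (δ x (θ x) * pa R π) ∨
    (Cyz R l (δ x (θ x) * pa R π) ∧ ∃ z, Ap R δ θ x z))

/-- OPB: the quadratic step in the building. -/
def OPB : Prop := ∀ R : RS, R.Ok → ∀ (X Γ : Type) [Group Γ] (δ : X → X → R.Aut) (τ : Γ → X → X)
  (π : Γ →* Equiv.Perm (Fin R.r)) (ε : Γ →* ℤˣ) (θ : Γ), Bld R δ → (∀ σ, Au R δ (τ σ) (π σ)) →
  (∀ σ σ' x, δ (τ σ (τ σ' x)) (τ (σ * σ') x) = 1) → ε θ = -1 → Nonempty X →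
  ∃ x J, (∀ σ, ε σ = 1 → Sb R δ (τ σ) (π σ) x J) ∧
    (∀ y J', (∀ σ, ε σ = 1 → Sb R δ (τ σ) (π σ) y J') → J.ncard ≤ J'.ncard) ∧
    ((∃ J', J' ≠ Set.univ ∧ ∀ σ, Sb R δ (τ σ) (π σ) x J') ∨
      ((∃ u ∈ R.WJ J, R.Lg Set.univ (u * δ x (τ θ x))) ∧ ∀ i,
        R.In (J ∪ {j | ∃ σ, ε σ = 1 ∧ j = π σ i}) ((δ x (τ θ x) * pa R (π θ)) (R.α i))))

/-- ENC: the subsystems of the end case. -/
def ENC : Prop := ∀ R : RS, R.Ok → ∀ (l : ℕ) [NeZero l], Od R l → ¬(R.r = 2 ∧ TyA R) →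
  ∀ w, Ext R w → Cyz R l w → ∃ (ρ : Fin l → Fin l → R.Q) (s : Fin l), As R ρ ∧ Rt R w ρ s ∧
    ((∃ d : Fin l → R.Q, (∀ i, d i ∈ R.Φ ∧ w (d i) = d (i + s)) ∧ ∀ i j, ρ i j = d i - d j) ∨
      ∃ (ρ' : Fin l → Fin l → R.Q) (s' : Fin l) (y : Fin l → ℤ), As R ρ' ∧ Rt R w ρ' s' ∧
        (∀ i j, Cp R (ρ i j) (ρ' 0 s') (y i - y j)) ∧ ¬(l : ℤ) ∣ ∑ i, y i)

/-- HR: two roots which are fixed by the diagram automorphisms. -/
def HR : Prop := ∀ R : RS, R.Ok → 2 ≤ R.r → ∃ i, ∃ β ∈ R.Φ, Cp R (R.α i) β 1 ∧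
  (∀ π, Dg R π → pa R π β = β) ∧ (¬TyA R → ∀ π, Dg R π → π i = i)

/-- MS: the exponent of the first cohomology of the maximal tori. -/
def MS : Prop := ∀ R : RS, R.Ok → ¬TyA R → ∃ (S : Finset R.Q) (b : R.Q → R.Q →ₗ[ℤ] ℤ) (a₂ a₃ a₅ : ℕ),
  (∀ w, Ext R w → ∀ s ∈ S, w s ∈ S ∧ ∀ γ, b (w s) (w γ) = b s γ) ∧
  (∀ γ, ∑ s ∈ S, b s γ • s = (2 ^ a₂ * 3 ^ a₃ * 5 ^ a₅ : ℕ) • γ) ∧ (a₅ = 0 ∨ Od R 5)

/-- DGP: the group of the diagram automorphisms. -/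
def DGP : Prop := ∀ R : RS, R.Ok → ∀ (Γ : Type) [Group Γ] (π : Γ →* Equiv.Perm (Fin R.r)),
  (∀ σ, Dg R (π σ)) → ∃ ε : Γ →* ℤˣ, (∀ σ, π σ = 1 → ε σ = 1) ∧
    ((∀ σ, ε σ = 1 → π σ = 1) ∨ (¬TyA R ∧ π.ker.relIndex ε.ker = 3))

end Vale.Agent.P011UHB
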