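import Vale.Agent.P011UHB.Spec
import Vale.Agent.P011UQ.IF

/-!
Block B: the statements for the type `E₆` over function fields.
-/

set_option autoImplicit false
set_option linter.all false

namespace Vale.Agent.P011UHB

open Matrix Vale.Agent.P011L Vale.Agent.P183CH Vale.Agent.P011U

section

variable {k K : Type} [Field k] [Field K] [Algebra k K] {D : Chev} (T : Tw k (D.grp K))

/-- a parabolic subgroup of type `J` is defined over `S` -/
def FixS (S : Set K) (J : Set (Fin D.R.r)) : Prop := ∃ y : D.grp K, ∀ σ, Fx S σ →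
  ∀ p ∈ PJ (GG D K) J, y⁻¹ * T.a σ (y * p * y⁻¹) * y ∈ PJ (GG D K) J

/-- the Levi subgroup of type `J` is stable, `θ` exchanges the two parabolic subgroups -/
def OpJ (L : IntermediateField k K) (θ : K ≃ₐ[k] K) (J : Set (Fin D.R.r)) : Prop :=
  ¬Fx (L : Set K) θ ∧
    (∀ σ, Fx (L : Set K) σ → ∃ g ∈ (GG D K).GJ J, ∃ c, Std (GG D K) (T.a σ) σ g c 1) ∧
    ∃ g ∈ (GG D K).GJ J, ∃ n w c π, (GG D K).Rep n w ∧ D.R.Lg Set.univ w ∧
      Std (GG D K) (T.a θ) θ (g * n) c π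

end

/-- the two outer pairs of nodes of `E₆` -/
def J0 {r : ℕ} (e : Fin r ≃ Fin 6) : Set (Fin r) := {j | e j ≠ 1 ∧ e j ≠ 3}

/-- BQ3: exponent three over a global function field. -/
def BQ3 : Prop := ∀ (k K : Type) [Field k] [P011.H271.GFF k] [Field K] [Algebra k K]
  [IsSepClosure k K] (n : Type) [Fintype n] [DecidableEq n] [Nonempty n]
  (A : (K ≃ₐ[k] K) → GL n K) (l : (K ≃ₐ[k] K) → K), P011LQ.PA ⊤ 3 A l →
    ∃ L : IntermediateField k K, Module.finrank k L = 3 ∧ IsGalois k L ∧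
      P011LQ.Sp {σ | Fx (L : Set K) σ} A

/-- LF3: a cyclic cubic extension kills the Tits algebras. -/
def LF3 : Prop := AllG fun k K _ _ _ D T => ¬NumberField k → ∀ e, Ty D.R CartanMatrix.E₆ e →
  In1 T ∅ → ∃ L : IntermediateField k K, Module.finrank k L = 3 ∧ IsGalois k L ∧
    ∀ T' : Tw L (D.grp K), Res T L T' → Lift T'

/-- TJ0: the anisotropic kernel contains the nodes with nontrivial Tits algebras. -/
def TJ0 : Prop := AllI fun _ _ _ _ _ D T => ∀ e, Ty D.R CartanMatrix.E₆ e → In1 T ∅ →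
  ∀ J, FixP T J → Lift T ∨ J0 e ⊆ J

/-- CMP: the form of a component of a stable Levi subgroup. -/
def CMP : Prop := AllI fun k K _ _ _ D T => In1 T ∅ → ∀ J, Par T J →
  ∀ (m : ℕ) (ι : Fin m ↪ Fin D.R.r), 0 < m →
  (∀ (P : Fin m → Prop) (i j : Fin m), P i → (∀ i j, P i → D.R.A (ι j) (ι i) ≠ 0 → P j) → P j) →
  Set.range ι ⊆ J → (∀ j ∈ J, j ∉ Set.range ι → ∀ i, D.R.A j (ι i) = 0) →
    ∃ (D' : Chev) (e : Fin D'.R.r ≃ Fin m) (T' : Tw k (D'.grp K)), SC D' ∧
      (∀ i j, D'.R.A i j = D.R.A (ι (e i)) (ι (e j))) ∧ In1 T' ∅ ∧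
      (∀ J', FixP T' J' → FixP T ((J \ Set.range ι) ∪ (fun i => ι (e i)) '' J')) ∧
      ((∀ i, ∃ γ : D.R.Q, ∀ j, D.R.pr γ j = if j = ι i then 1 else 0) → Lift T') ∧
      ∀ (L : IntermediateField k K) (T₁ : Tw L (D.grp K)) (T₁' : Tw L (D'.grp K)),
        FiniteDimensional k L → Res T L T₁ → Res T' L T₁' → Lift T₁ → Lift T₁'

/-- OPJ: the quadratic step with an anisotropic kernel, normal form. -/
def OPJ : Prop := AllI fun k K _ _ _ D T => ∀ L : IntermediateField k K, Module.finrank k L = 2 →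
  In1 T L → ∀ J, J ≠ Set.univ → FixS T L J → (∀ J', J' ≠ Set.univ → FixS T L J' → J ⊆ J') →
    ¬T.Ani ∨ ∃ (T' : Tw k (D.grp K)) (θ : _), Eqv T T' ∧ OpJ T' L θ J

/-- OP6: the quadratic step with an anisotropic kernel, end. -/
def OP6 : Prop := AllG fun k K _ _ _ D T => NoR k → ∀ e, Ty D.R CartanMatrix.E₆ e →
  ∀ (L : IntermediateField k K) θ, Module.finrank k L = 2 → ¬In1 T ∅ → OpJ T L θ (J0 e) → ¬T.Ani

end Vale.Agent.P011UHB
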