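import Vale.Agent.P011UHB.Plug
import Vale.Agent.P011UTR.Main
import Vale.Agent.P011UV4.Cmp
import Vale.Agent.P011UHR.Main
import Vale.Agent.P011UOJ.Main
import Vale.Agent.P011UBS.Opb

/-!
Block B: the end.
-/

set_option autoImplicit false
set_option linter.all false

namespace Vale.Agent.P011UHB

open Vale.Agent.P011U

/-- Without real places, a form with trivial Tits algebras is quasi-split. -/
theorem hb : HB := hb_pl P011UHR.red P011UTR.trn

theorem e6i_bq (bq : BQ3) : E6I := e6i_pl hb bq P011UV4.cmp (P011UOJ.opj P011UBS.opb)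

end Vale.Agent.P011UHB
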