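import Vale.Agent.P011UHB.Spec
import Vale.Agent.P011U.Top
import Vale.Agent.P011UD.Aut

/-!
Block B: the quadratic step and the descent along towers.
-/

set_option autoImplicit false
set_option linter.all false

namespace Vale.Agent.P011UHB

open Matrix Vale.Agent.P011L Vale.Agent.P183CH Vale.Agent.P011U

/-- OPX2: the quadratic step, normal form. -/
def OPX2 : Prop := AllI fun k K _ _ _ D T => ∀ L : IntermediateField k K,
  Module.finrank k L = 2 → QS T L → (¬TyA D.R ∨ In1 T L) →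
    ¬T.Ani ∨ ∃ (T' : Tw k (D.grp K)) (θ : _) (π : _), Eqv T T' ∧ Op2 T' L θ π ∧ (In1 T L → π = 1)

/-- DS: descent along the towers of smaller degrees. -/
def DS (n l : ℕ) : Prop := AllG fun k K _ _ _ D T => D.R.r ≤ n → NoR k → Lift T → ¬TyA D.R →
  Od D.R l → Per T l ∅ → In3 T ∅ → ∀ F : IntermediateField k K, Up {p | p < l} ⊥ F → QS T F →
    FixP T ∅

theorem PJ_nil {R : RS} {K G : Type} [Field K] [Group G] (Γ : RG R K G) (hR : R.Ok) :
    PJ Γ ∅ = Γ.Bo := by
  have : Γ.X {γ | R.In ∅ γ} = ⊥ := by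
    refine (Subgroup.closure_eq_bot_iff).2 ?_
    rintro g ⟨γ, h, h', -⟩
    exact ((hR.sign γ h').1 (funext fun i => h i (Set.notMem_empty i))).elim
  rw [PJ, RG.GJ, this, bot_sup_eq, RG.Bo, sup_comm]

section

variable {k K : Type} [Field k] [Field K] [Algebra k K]

theorem Fx.mono {S S' : Set K} {σ : K ≃ₐ[k] K} (h : Fx S' σ) (i : S ⊆ S') : Fx S σ :=
  fun x hx => h x (i hx)

theorem fx_nil (σ : K ≃ₐ[k] K) : Fx ∅ σ := fun _ h => h.elim

theorem fx_bot (σ : K ≃ₐ[k] K) : Fx ((⊥ : IntermediateField k K) : Set K) σ := by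
  intro x hx
  obtain ⟨c, rfl⟩ := IntermediateField.mem_bot.1 hx
  exact σ.commutes c

theorem fx_res (A : IntermediateField k K) (σ : K ≃ₐ[A] K) : Fx (A : Set K) (σ.restrictScalars k) :=
  fun x hx => σ.commutes ⟨x, hx⟩

theorem ex_res {A : IntermediateField k K} {σ : K ≃ₐ[k] K} (h : Fx (A : Set K) σ) :
    ∃ σ' : K ≃ₐ[A] K, σ'.restrictScalars k = σ :=
  ⟨{ σ with commutes' := fun x => h x x.2 }, rfl⟩

theorem all_res {A : IntermediateField k K} {S S' : Set K} (hS : S' = (A : Set K) ∪ S)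
    {P : (K ≃ₐ[k] K) → Prop} :
    (∀ σ : K ≃ₐ[A] K, Fx S σ → P (σ.restrictScalars k)) ↔ ∀ σ, Fx S' σ → P σ := by
  subst hS
  refine ⟨fun h σ s => ?_, fun h σ s => h _ fun x hx => hx.elim (fx_res A σ x) (s x)⟩
  obtain ⟨σ, rfl⟩ := ex_res (s.mono Set.subset_union_left)
  exact h σ fun x hx => s x (.inr hx)

theorem NoR.ext (h : NoR k) (L : Type) [Field L] [Algebra k L] : NoR L :=
  ⟨fun f => h.false (f.comp (algebraMap k L))⟩

theorem Cyc.le {l : ℕ} {A B : IntermediateField k K} (h : Cyc l A B) : A ≤ B := by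
  obtain ⟨M, rfl, -⟩ := h
  exact fun x hx => M.algebraMap_mem ⟨x, hx⟩

theorem Cyc.fin {l : ℕ} {A B : IntermediateField k K} (h : Cyc l A B) (hl : 0 < l)
    [FiniteDimensional k A] : FiniteDimensional k B := by
  obtain ⟨M, rfl, h, -⟩ := h
  haveI : FiniteDimensional A M := Module.finite_of_finrank_pos (h ▸ hl)
  exact FiniteDimensional.trans k A M

theorem Up.le {P : Set ℕ} {A B : IntermediateField k K} (h : Up P A B) : A ≤ B := by
  induction h with
  | refl => exact le_rfl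
  | tail _ h ih => obtain ⟨_, _, _, h⟩ := h; exact ih.trans h.le

theorem Up.fin {P : Set ℕ} {A B : IntermediateField k K} (h : Up P A B) [FiniteDimensional k A] :
    FiniteDimensional k B := by
  induction h with
  | refl => infer_instance
  | tail _ h ih => obtain ⟨_, _, p, h⟩ := h; exact h.fin p.pos

/-- Descent of a property along a tower. -/
theorem Up.dsc {P : Set ℕ} {L L' : IntermediateField k K} (h : Up P L L') [FiniteDimensional k L]
    {Q : IntermediateField k K → Prop} (st : ∀ A B, L ≤ A → FiniteDimensional k A →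
      ∀ l ∈ P, l.Prime → Cyc l A B → Q B → Q A) : Q L' → Q L := by
  induction h with
  | refl => exact id
  | tail h h' ih =>
    obtain ⟨l, a, p, h'⟩ := h'
    exact fun q => ih (st _ _ (Up.le h) (Up.fin h) l a p h' q)

variable {D : Chev} {T : Tw k (D.grp K)}

theorem fixP_nil : FixP T ∅ ↔ QS T ∅ := by
  unfold FixP QS
  rw [PJ_nil _ (Chev.R_ok D)]
  exact exists_congr fun y => forall_congr' fun σ => ⟨fun h _ => h, fun h => h (fx_nil σ)⟩

theorem QS.mono {S S' : Set K} (h : QS T S) (i : S ⊆ S') : QS T S' :=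
  h.imp fun _ h σ s => h σ (s.mono i)

theorem In1.mono {S S' : Set K} (h : In1 T S) (i : S ⊆ S') : In1 T S' := fun σ s => h σ (s.mono i)

theorem In3.mono {S S' : Set K} (h : In3 T S) (i : S ⊆ S') : In3 T S' := fun σ s => h σ (s.mono i)

theorem In1.in3 {S : Set K} (h : In1 T S) : In3 T S := fun σ s => by
  obtain ⟨g, c, h⟩ := h σ s
  exact ⟨g, c, 1, h, one_pow _⟩

theorem Per.mono {S S' : Set K} {l l' : ℕ} (h : Per T l S) (i : S ⊆ S') (j : l' ≤ l) :
    Per T l' S' := fun p a b c => (h p a (b.trans_le j) c).imp fun _ h => h.imp_right fun h => by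
  obtain ⟨Φ, g, c, h, h'⟩ := h
  exact ⟨Φ, g, c, h, fun σ s => h' σ (s.mono i)⟩

theorem QS.bot (h : QS T (⊥ : IntermediateField k K)) : FixP T ∅ :=
  fixP_nil.2 (h.imp fun _ h σ _ => h σ (fx_bot σ))

variable {A : IntermediateField k K} {T' : Tw A (D.grp K)} (r : Res T A T') {S S' : Set K}
  (hS : S' = (A : Set K) ∪ S)
include r hS

theorem res_qs : QS T' S ↔ QS T S' := exists_congr fun y => by
  rw [← all_res hS]
  exact forall_congr' fun σ => by rw [r σ]

theorem res_in1 : In1 T' S ↔ In1 T S' := by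
  unfold In1
  rw [← all_res hS]
  exact forall_congr' fun σ => by rw [r σ]; rfl

theorem res_in3 : In3 T' S ↔ In3 T S' := by
  unfold In3
  rw [← all_res hS]
  exact forall_congr' fun σ => by rw [r σ]; rfl

theorem res_per {l : ℕ} : Per T' l S ↔ Per T l S' := by
  refine forall₃_congr fun p _ _ => forall_congr' fun _ => exists_congr fun N =>
    and_congr_right fun _ => exists₃_congr fun Φ g c => and_congr_right fun _ => ?_
  rw [← all_res hS]
  exact forall_congr' fun σ => by rw [r σ]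

end

theorem st2 (ox : OPX2) (op : OP2) (isq : ISQ) (inv : INV) (ea : EQA) {n : ℕ} (hb : HBlt n) :
    ST2 n := by
  intro k K _ _ _ _ D hk hD T hn hr hl L h2 q h
  haveI := Glob.inf hk
  refine isq n hb k K D hk hD T hn hr hl ?_
  rcases ox k K D hD T L h2 q (h.imp And.left And.right) with h' | ⟨T', θ, π, e, o, h1⟩
  · exact h'
  have i := ((inv k K D hD T).1 T' e).2.2 L
  exact fun an => op k K D hk hD T' hr L θ π h2 o
    (h.imp (fun h => ⟨h.1, i.2.2.1 h.2⟩) fun h => ⟨h.1, i.2.1 h.2, h1 h.2⟩) (ea k K D hD T T' e an)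

section

variable {k K : Type} [Field k] [Field K] [Algebra k K] [IsSepClosure k K] {D : Chev}
  {T : Tw k (D.grp K)} {n : ℕ} (inv : INV) (hk : Glob k) (hD : SC D) (hn : D.R.r ≤ n) (hr : NoR k)
  (hl : Lift T) {A B : IntermediateField k K} [FiniteDimensional k A]
include inv hk hD hn hr hl

theorem step2 (st : ST2 n) (c : Cyc 2 A B) (h : (¬TyA D.R ∧ In3 T B) ∨ (2 ≤ D.R.r ∧ In1 T B))
    (q : QS T B) : QS T A := by
  haveI := Glob.inf hk
  haveI := sepCl A
  obtain ⟨g, T', r, l⟩ := (inv k K D hD T).2 A ‹_›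
  have e : (B : Set K) = (A : Set K) ∪ (B : Set K) := (Set.union_eq_right.2 c.le).symm
  obtain ⟨M, rfl, h2, -⟩ := c
  exact (res_qs r (Set.union_empty _).symm).1 (fixP_nil.1 (st A K D (g hk) hD T' hn (NoR.ext hr A) (l hl)
    M h2 ((res_qs r e).2 q) (h.imp (And.imp_right (res_in3 r e).2) (And.imp_right (res_in1 r e).2))))

theorem stepl {l : ℕ} (st : STL n l) (c : Cyc l A B) (hA : ¬TyA D.R) (o : Od D.R l)
    (p : Per T l A) (i : In1 T B) (q : QS T B) : QS T A := by
  haveI := Glob.inf hk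
  haveI := sepCl A
  obtain ⟨g, T', r, l⟩ := (inv k K D hD T).2 A ‹_›
  have e : (B : Set K) = (A : Set K) ∪ (B : Set K) := (Set.union_eq_right.2 c.le).symm
  obtain ⟨M, rfl, h2, h3⟩ := c
  exact (res_qs r (Set.union_empty _).symm).1 (fixP_nil.1 (st A K D (g hk) hD T' hn (NoR.ext hr A) (l hl)
    hA o ((res_per r (Set.union_empty _).symm).2 p) M h2 h3 ((res_qs r e).2 q) ((res_in1 r e).2 i)))

end

theorem od5 {R : RS} (h : Od R 5) {π : Equiv.Perm (Fin R.r)} (d : Dg R π) : π = 1 := by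
  obtain ⟨e, t⟩ := (h.resolve_left (by decide)).2
  exact pc_one (P011UD.autE8 (t.au d))

theorem ds3 (inv : INV) {n : ℕ} (st : ST2 n) : DS n 3 := by
  intro k K _ _ _ _ D hk hD T hn hr hl hA _ _ i F u q
  refine QS.bot (u.dsc (Q := fun A => QS T A) (fun A B _ _ l a p c => ?_) q)
  obtain rfl : l = 2 := le_antisymm (Nat.le_of_lt_succ a) p.two_le
  exact step2 inv hk hD hn hr hl st c (.inl ⟨hA, i.mono (Set.empty_subset _)⟩)

theorem ds5 (inv : INV) {n : ℕ} (st : ST2 n) (s3 : STL n 3) : DS n 5 := by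
  intro k K _ _ _ _ D hk hD T hn hr hl hA o pe i F u q
  refine QS.bot (u.dsc (Q := fun A => QS T A) (fun A B _ _ l a p c => ?_) q)
  have h2 := p.two_le
  have h5 : l < 5 := a
  obtain rfl | rfl : l = 2 ∨ l = 3 := by
    interval_cases l
    · exact .inl rfl
    · exact .inr rfl
    · exact absurd p (by decide)
  · exact step2 inv hk hD hn hr hl st c (.inl ⟨hA, i.mono (Set.empty_subset _)⟩)
  · refine stepl inv hk hD hn hr hl s3 c hA (.inl rfl) (pe.mono (Set.empty_subset _) (by decide))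
      fun σ _ => ?_
    obtain ⟨g, c, π, h, -⟩ := i σ (fx_nil σ)
    exact ⟨g, c, od5 o h.1 ▸ h⟩

end Vale.Agent.P011UHB
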