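import Vale.Agent.P011UHB.Glue
import Vale.Agent.P011UHT.Gal
import Vale.Agent.P011UTR.IF

/-!
Block B: the assembly.
-/

set_option autoImplicit false
set_option linter.all false

namespace Vale.Agent.P011UHB

open Matrix Vale.Agent.P011L Vale.Agent.P183CH Vale.Agent.P011U IntermediateField
open Vale.Agent.P011UHT (fx_iff fix_ff cyc_of)

section

variable {k K : Type} [Field k] [Field K] [Algebra k K]

/-- One step in a tower. -/
theorem gal1 [IsSepClosure k K] {l : ℕ} (L : IntermediateField k K) (H : Subgroup (K ≃ₐ[k] K))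
    [H.Normal] (hl : l.Prime) (o : Near k (· ∈ H)) (i : H.relIndex L.fixingSubgroup ∣ l) :
    ∃ L', (L' = L ∨ Cyc l L L') ∧ ∀ σ, Fx (L' : Set K) σ → σ ∈ H := by
  obtain ⟨F, _, hF⟩ := o
  have o : IsOpen (H : Set Gal(K/k)) := Subgroup.isOpen_mono (H₁ := F.fixingSubgroup)
    (fun τ m => hF τ ((mem_fixingSubgroup_iff _ _).1 m)) F.fixingSubgroup_isOpen
  have c := InfiniteGalois.fixingSubgroup_isClosed L
  have c' : IsClosed ((L.fixingSubgroup ⊓ H : Subgroup _) : Set Gal(K/k)) :=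
    c.inter (Subgroup.isClosed_of_isOpen _ o)
  rcases (Nat.dvd_prime hl).1 i with i | i
  · exact ⟨L, .inl rfl, fun σ m => Subgroup.relIndex_eq_one.1 i (fx_iff.1 m)⟩
  refine ⟨fixedField (L.fixingSubgroup ⊓ H), .inr ?_, fun σ m => (fix_ff c' ▸ fx_iff.1 m).2⟩
  have := cyc_of c c' inf_le_left (by rw [Subgroup.inf_subgroupOf_left]; infer_instance)
    ((Subgroup.inf_relIndex_left _ _).trans i)
  rwa [InfiniteGalois.fixedField_fixingSubgroup] at this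

theorem up_or {l : ℕ} {L L' : IntermediateField k K} (hl : l.Prime) (h : L' = L ∨ Cyc l L L') :
    Up {l} L L' := h.elim (fun h => h ▸ .refl) fun h => .single ⟨l, rfl, hl, h⟩

theorem Mu.mono {l : ℕ} {L L' : IntermediateField k K} (h : Mu l L) (i : L ≤ L') : Mu l L' :=
  h.imp_right fun ⟨ζ, a, b⟩ => ⟨ζ, i a, b⟩

theorem sgn_idx {Γ : Type} [Group Γ] (ε : Γ →* ℤˣ) (H : Subgroup Γ) : ε.ker.relIndex H ∣ 2 := by
  refine (Subgroup.relIndex_dvd_index_of_normal _ _).trans ?_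
  rw [Subgroup.index_ker]
  exact (Subgroup.card_subgroup_dvd_card _).trans (by simp)

variable {r : ℕ} {ω : (K ≃ₐ[k] K) →* ((Fin r → ℤ) ≃ₗ[ℤ] (Fin r → ℤ))}
  {ξ : (K ≃ₐ[k] K) → (Fin r → ℤ) → Kˣ} {S S' : Set K}

theorem Ml.pow {χ : (Fin r → ℤ) → Kˣ} (h : Ml χ) (j : ℕ) : Ml (χ ^ j) := fun γ δ => by
  simp only [Pi.pow_apply, h γ δ, mul_pow]

theorem ga_pow (σ : K ≃ₐ[k] K) (χ : (Fin r → ℤ) → Kˣ) (j : ℕ) :
    ga ω σ (χ ^ j) = ga ω σ χ ^ j := funext fun γ => map_pow _ _ _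

theorem Co.pow (h : Co ω ξ) (j : ℕ) : Co ω fun σ => ξ σ ^ j :=
  ⟨fun σ => (h.ml σ).pow j, fun σ τ => by rw [h.mul, mul_pow, ga_pow],
    h.cont.imp fun _ h => h.imp_right fun h τ t => ⟨(h τ t).1, by rw [(h τ t).2, one_pow]⟩⟩

theorem Cb.pow (h : Cb ω ξ S) (j : ℕ) : Cb ω (fun σ => ξ σ ^ j) S := by
  obtain ⟨χ, a, b⟩ := h
  exact ⟨χ ^ j, a.pow j, fun σ s => by rw [← mul_pow, b σ s, ga_pow]⟩

theorem Cb.mono (h : Cb ω ξ S) (i : S ⊆ S') : Cb ω ξ S' :=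
  h.imp fun _ h => h.imp_right fun h σ s => h σ (s.mono i)

theorem kil' [IsSepClosure k K] (kil : KIL) (hk : Glob k) (hr : NoR k) (h : Co ω ξ) {l a m : ℕ}
    (hl : l.Prime) (L : IntermediateField k K) [FiniteDimensional k L] (mu : Mu l L)
    (c : Cb ω (fun σ => ξ σ ^ (l ^ a * m)) L) : ∃ L', Up {l} L L' ∧ Cb ω (fun σ => ξ σ ^ m) L' :=
  kil k K r ω _ (h.pow m) hk hr l a L hl ‹_› mu (by simpa only [← pow_mul, mul_comm] using c)

theorem exists_N {p e m : ℕ} (h : p.Coprime (e * m)) (hp : 0 < p) (h0 : 0 < e * m) :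
    ∃ N t, 0 < N ∧ p ^ N = e * (m * t) + 1 := by
  obtain ⟨t, ht⟩ := (Nat.modEq_iff_dvd' (Nat.pow_pos hp)).1 (Nat.ModEq.pow_totient h).symm
  exact ⟨_, t, Nat.totient_pos.2 h0, by
    rw [← mul_assoc, ← ht, Nat.sub_add_cancel (Nat.pow_pos hp)]⟩

end

theorem hb_A (hba : HBA) (dgp : DGP) (sta : STA) (inv : INV) {n : ℕ} (s2 : ST2 n) :
    AllG fun k _ _ _ _ D T => D.R.r ≤ n → TyA D.R → NoR k → Lift T → FixP T ∅ := by
  intro k K _ _ _ _ D hk hD T hn hA hr hl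
  haveI := Glob.inf hk
  by_cases h1 : In1 T ∅
  · exact hba k K D hD T hA h1 hl
  obtain ⟨π, p1, -, p3⟩ := sta k K D hD T
  have dg : ∀ σ, Dg D.R (π σ) := fun σ => by obtain ⟨_, _, h⟩ := p1 σ; exact h.1
  obtain ⟨ε, e1, e2⟩ := dgp D.R (Chev.R_ok D) _ π dg
  replace e2 := e2.resolve_right fun h => h.1 hA
  obtain ⟨L, c, f⟩ := gal1 ⊥ ε.ker Nat.prime_two
    (p3.imp fun _ h => h.imp_right fun h τ t => e1 τ (h τ t)) (sgn_idx ε _)
  have i : In1 T L := fun σ s => e2 σ (f σ s) ▸ p1 σ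
  have h2 : 2 ≤ D.R.r := by
    by_contra h
    haveI : Subsingleton (Fin D.R.r) := Fin.subsingleton_iff_le_one.2 (by omega)
    exact h1 fun σ _ => Subsingleton.elim (π σ) 1 ▸ p1 σ
  rcases c with rfl | c
  · exact (h1 fun σ _ => i σ (fx_bot σ)).elim
  haveI := c.fin two_pos
  haveI := sepCl L
  obtain ⟨g, T', r, l⟩ := (inv k K D hD T).2 L ‹_›
  haveI := Glob.inf (g hk)
  have e := (Set.union_empty (L : Set K)).symm
  exact QS.bot (step2 inv hk hD hn hr hl s2 c (.inr ⟨h2, i⟩)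
    ((res_qs r e).1 (fixP_nil.1 (hba L K D hD T' hA ((res_in1 r e).2 i) (l hl)))))

theorem hb_N (dgp : DGP) (sta : STA) (inv : INV) (trn : P011UTR.TRN) (ms : MS) (prm : PRM)
    (rot : ROT) (kil : KIL) {n : ℕ} (s2 : ST2 n) (s3 : STL n 3) (s5 : STL n 5) :
    AllG fun k _ _ _ _ D T => D.R.r ≤ n → ¬TyA D.R → NoR k → Lift T → FixP T ∅ := by
  intro k K _ _ _ _ D hk hD T₀ hn hA hr hl
  haveI := Glob.inf hk
  obtain ⟨T, ω, ξ, η, e, ev, ex, cξ, cη, qs, he, pq⟩ := trn k K D hD T₀ hA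
  obtain ⟨ev', hl', -⟩ := (inv k K D hD T₀).1 T ev
  replace hl := hl' hl
  refine fixP_nil.2 ((((inv k K D hD T).1 T₀ ev').2.2 ∅).1 (fixP_nil.1 (QS.bot ?_)))
  obtain ⟨S, b, a₂, a₃, a₅, m1, m2, m3⟩ := ms D.R (Chev.R_ok D) hA
  have bξ := prm k K _ ω ξ cξ S b _ (fun σ => m1 _ (ex σ)) m2
  have bη := prm k K _ ω η cη S b _ (fun σ => m1 _ (ex σ)) m2
  rw [mul_assoc] at bξ bη
  have per : ∀ (l m : ℕ) (A : Set K), 0 < m → Cb ω (fun σ => η σ ^ m) A →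
      (∀ p : ℕ, p.Prime → p < l → p.Coprime m) → Per T l A := fun l m A m0 c h p hp pl p0 => by
    have c1 : p.Coprime e := by
      rcases he with rfl | ⟨rfl, h2⟩
      · exact p.coprime_one_right
      · exact (Nat.coprime_primes hp Nat.prime_two).2 fun h => h2 (by simpa [h] using p0)
    obtain ⟨N, t, N0, hN⟩ := exists_N (c1.mul_right (h p hp pl)) hp.pos
      (Nat.mul_pos (by omega) m0)
    exact ⟨N, N0, pq p N _ A hp p0 hN (by simpa only [← pow_mul] using c.pow t)⟩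
  obtain ⟨π, p1, -, p3⟩ := sta k K D hD T
  have dg : ∀ σ, Dg D.R (π σ) := fun σ => by obtain ⟨_, _, h⟩ := p1 σ; exact h.1
  obtain ⟨ε, e1, e2⟩ := dgp D.R (Chev.R_ok D) _ π dg
  have e3 : π.ker.relIndex ε.ker ∣ 3 := e2.elim
    (fun h => (Subgroup.relIndex_eq_one.2 (show ε.ker ≤ π.ker from h)).symm ▸ one_dvd 3)
    fun h => h.2.symm ▸ dvd_rfl
  obtain ⟨L₁, c₁, f₁⟩ := gal1 ⊥ ε.ker Nat.prime_two
    (p3.imp fun _ h => h.imp_right fun h τ t => e1 τ (h τ t)) (sgn_idx ε _)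
  haveI := (up_or Nat.prime_two c₁).fin
  have i3 : In3 T L₁ := fun σ s => by
    obtain ⟨g, c, h⟩ := p1 σ
    obtain ⟨j, hj⟩ := e3
    refine ⟨g, c, _, h, ?_⟩
    rw [hj, pow_mul, ← map_pow]
    exact (congrArg (· ^ j) (Subgroup.pow_index_mem (H := π.ker.subgroupOf ε.ker)
      ⟨σ, f₁ σ s⟩)).trans (one_pow _)
  obtain ⟨L₂, u₂, μ₂, μ₃, μ₅⟩ := rot k K L₁
  haveI := u₂.fin
  obtain ⟨L₃, u₃, ξ₃⟩ := kil' kil hk hr cξ Nat.prime_two L₂ μ₂ (bξ.mono (Set.empty_subset _))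
  haveI := u₃.fin
  obtain ⟨L₄, u₄, η₄⟩ := kil' kil hk hr cη Nat.prime_two L₃ (μ₂.mono u₃.le)
    (bη.mono (Set.empty_subset _))
  haveI := u₄.fin
  have u : Up {2} L₁ L₄ := (u₂.trans u₃).trans u₄
  obtain ⟨L₅, c₅, f₅⟩ := gal1 L₄ π.ker Nat.prime_three p3 (by
    have h : L₄.fixingSubgroup ≤ ε.ker := fun σ s => f₁ σ ((fx_iff.2 s).mono u.le)
    rw [← Subgroup.relIndex_subgroupOf h]
    exact (Subgroup.relIndex_dvd_index_of_normal _ _).trans e3)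
  have u₅ := up_or Nat.prime_three c₅
  haveI := u₅.fin
  have i1 : In1 T L₅ := fun σ s => (show π σ = 1 from f₅ σ s) ▸ p1 σ
  have l₅ : L₂ ≤ L₅ := (u₃.le.trans u₄.le).trans u₅.le
  obtain ⟨L₆, u₆, ξ₆⟩ := kil' kil hk hr cξ Nat.prime_three L₅ (μ₃.mono l₅)
    (ξ₃.mono (u₄.le.trans u₅.le))
  haveI := u₆.fin
  obtain ⟨L₇, u₇, η₇⟩ := kil' kil hk hr cη Nat.prime_three L₆ (μ₃.mono (l₅.trans u₆.le))
    (η₄.mono (u₅.le.trans u₆.le))
  haveI := u₇.fin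
  have u' : Up {3} L₅ L₇ := u₆.trans u₇
  have P₃ : Per T 3 L₄ := per 3 _ _ (by positivity) η₄ fun p hp h => by
    obtain rfl : p = 2 := le_antisymm (Nat.le_of_lt_succ h) hp.two_le
    exact Nat.Coprime.mul_right (Nat.Coprime.pow_right _ (by decide))
      (Nat.Coprime.pow_right _ (by decide))
  have P₅ : Per T 5 L₇ := per 5 _ _ (by positivity) η₇ fun p hp h =>
    Nat.Coprime.pow_right _ ((Nat.coprime_primes hp Nat.prime_five).2 h.ne)
  have q₇ : QS T L₇ := by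
    rcases m3 with rfl | o
    · exact qs _ (by simpa using ξ₆.mono u₇.le)
    obtain ⟨L₈, u₈, ξ₈⟩ := kil' (m := 1) kil hk hr cξ Nat.prime_five L₇
      (μ₅.mono (l₅.trans u'.le)) (by simpa using ξ₆.mono u₇.le)
    refine u₈.dsc (Q := fun A => QS T A) (fun A B h _ l a p c => ?_) (qs _ (by simpa using ξ₈))
    obtain rfl : l = 5 := a
    exact stepl inv hk hD hn hr hl s5 c hA o (P₅.mono h le_rfl)
      (i1.mono ((u'.le.trans h).trans c.le))
  have q₅ : QS T L₅ := by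
    refine u'.dsc (Q := fun A => QS T A) (fun A B h _ l a p c => ?_) q₇
    obtain rfl : l = 3 := a
    exact stepl inv hk hD hn hr hl s3 c hA (.inl rfl) (P₃.mono (u₅.le.trans h) le_rfl)
      (i1.mono (h.trans c.le))
  have q₄ : QS T L₄ := c₅.elim (fun h => h ▸ q₅) fun c =>
    stepl inv hk hD hn hr hl s3 c hA (.inl rfl) P₃ i1 q₅
  have q₁ : QS T L₁ := by
    refine u.dsc (Q := fun A => QS T A) (fun A B h _ l a p c => ?_) q₄
    obtain rfl : l = 2 := a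
    exact step2 inv hk hD hn hr hl s2 c (.inl ⟨hA, i3.mono (h.trans c.le)⟩)
  exact c₁.elim (fun h => h ▸ q₁) fun c => step2 inv hk hD hn hr hl s2 c (.inl ⟨hA, i3⟩) q₁

/-- The assembly of the block. -/
theorem hb_of (hba : HBA) (dgp : DGP) (sta : STA) (inv : INV) (trn : P011UTR.TRN) (ms : MS)
    (prm : PRM) (rot : ROT) (kil : KIL) (ox : OPX2) (op : OP2) (isq : ISQ) (ea : EQA)
    (stl : ∀ n l, HBlt n → DS n l → STL n l) : HB := by
  have : ∀ n, HBlt n := fun n => by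
    induction n with
    | zero => exact fun _ _ _ _ _ _ _ _ _ _ h => (Nat.not_lt_zero _ h).elim
    | succ n ih =>
      intro k K _ _ _ _ D hk hD T hn
      have s2 := st2 ox op isq inv ea ih
      have s3 := stl n 3 ih (ds3 inv s2)
      by_cases hA : TyA D.R
      · exact hb_A hba dgp sta inv s2 k K D hk hD T (Nat.le_of_lt_succ hn) hA
      · exact hb_N dgp sta inv trn ms prm rot kil s2 s3 (stl n 5 ih (ds5 inv s2 s3)) k K D hk hD T
          (Nat.le_of_lt_succ hn) hA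
  exact fun k K _ _ _ _ D hk hD T => this _ k K D hk hD T (Nat.lt_succ_self _)

end Vale.Agent.P011UHB
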