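import Vale.Agent.P011UHB.Main
import Vale.Agent.P011UHB.E6
import Vale.Agent.P011UHB1.Hba
import Vale.Agent.P011UMS.Main
import Vale.Agent.P011UIV.Main
import Vale.Agent.P011UHC.Prm
import Vale.Agent.P011UHC.Cd1
import Vale.Agent.P011UHT.Tow
import Vale.Agent.P011UG2.Main
import Vale.Agent.P011UK.Op2
import Vale.Agent.P011UK.Mov
import Vale.Agent.P011UCX.Main
import Vale.Agent.P011UIQ.Main
import Vale.Agent.P011UCX.Stl
import Vale.Agent.P011UBS.Cox
import Vale.Agent.P011UHN.Main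
import Vale.Agent.P011UBN.Main
import Vale.Agent.P011UD7.Eig
import Vale.Agent.P011UD7.Hr
import Vale.Agent.P011UX2.Slh
import Vale.Agent.P011UY.Ari
import Vale.Agent.P011UC.Tr
import Vale.Agent.P011UB.Main
import Vale.Agent.P011UQ74.E6b
import Vale.Agent.P011UD7.Enc
import Vale.Agent.P011UGC5.Lf3
import Vale.Agent.P011UB6.Main

/-!
Block B: the proved rows are plugged in.
-/

set_option autoImplicit false
set_option linter.all false

namespace Vale.Agent.P011UHB

open Vale.Agent.P011U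

theorem mov0 : MOV := P011UK.mov P011UX2.slh P011UY.h9 P011UY.ari

theorem op0 : OP2 := P011UK.op2 P011UD7.hr mov0

theorem cxg0 : CXG := P011UCX.cxg (P011UBS.cox_of P011UHN.hn P011UBN.bnd P011UD7.eig)
  (P011UC.nfx P011UB.aut)

theorem hb_pl (red : RED) (trn : P011UTR.TRN) : HB :=
  hb_of P011UHB1.hba P011UMS.dgp P011UIV.sta P011UIV.inv trn P011UMS.ms P011UHC.prm P011UHT.rot
    (P011UHT.kil P011UHT.tow P011UHC.cd1) P011UG2.opx2 op0 P011UIQ.isq P011UC.eqa
    fun _ _ hb ds => P011UCX.stl_of P011UG2.nrm cxg0 red P011UD7.enc mov0 P011UIQ.isq P011UC.eqa hb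
      fun k K _ _ _ _ D hk hD T a b c d e f g _ => ds k K D hk hD T a b c d e f g

theorem e6i_pl (hb : HB) (bq : BQ3) (cm : CMP) (oj : OPJ) : E6I :=
  P011UQ74.e6i_of hb (P011UGC5.lf3 bq) P011UGC5.tj0 cm oj P011UB6.op6 op0 cxg0 P011UD7.enc mov0

end Vale.Agent.P011UHB
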